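import Crest.Agent.R65.D3Defs

/-! Row 65, `d = 3`: lines, planes and polynomials in `ℝ³`. -/

set_option autoImplicit false

open Finset Matrix
open scoped Classical

namespace Crest.Agent.R65.L3

open Crest.Agent.R65.D3

theorem mem_ln_self (a v : V3) : a ∈ ln a v := ⟨0, by simp⟩

theorem ln_eq_of_mem {a v x : V3} (hx : x ∈ ln a v) : ln a v = ln x v := by
  obtain ⟨c, rfl⟩ := hx
  ext y
  constructor
  · rintro ⟨e, rfl⟩
    exact ⟨e - c, by rw [sub_smul]; abel⟩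
  · rintro ⟨e, rfl⟩
    exact ⟨c + e, by rw [add_smul]; abel⟩

theorem ln_smul (a v : V3) {c : ℝ} (hc : c ≠ 0) : ln a (c • v) = ln a v := by
  ext y
  constructor
  · rintro ⟨e, rfl⟩
    exact ⟨e * c, by rw [smul_smul]⟩
  · rintro ⟨e, rfl⟩
    exact ⟨e / c, by rw [smul_smul, div_mul_cancel₀ _ hc]⟩

/-- a line through a given point -/
theorem IsLine.exists_dir {l : Set V3} (h : IsLine l) {x : V3} (hx : x ∈ l) :
    ∃ v : V3, v ≠ 0 ∧ l = ln x v := by
  obtain ⟨a, v, hv, rfl⟩ := h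
  exact ⟨v, hv, ln_eq_of_mem hx⟩

theorem IsLine.eq_ln {l : Set V3} (h : IsLine l) {x y : V3} (hxy : x ≠ y) (hx : x ∈ l)
    (hy : y ∈ l) : l = ln x (y - x) := by
  obtain ⟨v, hv, rfl⟩ := IsLine.exists_dir h hx
  obtain ⟨c, rfl⟩ := hy
  have hc : c ≠ 0 := by
    rintro rfl
    simp at hxy
  rw [add_sub_cancel_left, ln_smul _ _ hc]

theorem IsLine.eq_of_two {l l' : Set V3} (h : IsLine l) (h' : IsLine l') {x y : V3} (hxy : x ≠ y)
    (hx : x ∈ l) (hy : y ∈ l) (hx' : x ∈ l') (hy' : y ∈ l') : l = l' :=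
  (IsLine.eq_ln h hxy hx hy).trans (IsLine.eq_ln h' hxy hx' hy').symm

/-- ordered pairs on distinct lines are distinct -/
theorem sum_offDiag_le (L : Finset (Set V3)) (hL : ∀ l ∈ L, IsLine l) (Q : Finset V3) :
    ∑ l ∈ L, (Q.filter (· ∈ l)).offDiag.card ≤ Q.card * Q.card := by
  rw [← card_biUnion, ← card_product]
  · refine card_le_card fun a ha => ?_
    obtain ⟨m, -, ha⟩ := mem_biUnion.1 ha
    obtain ⟨b1, b2, -⟩ := mem_offDiag.1 ha
    exact mem_product.2 ⟨(mem_filter.1 b1).1, (mem_filter.1 b2).1⟩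
  · intro m hm m' hm' hne
    refine disjoint_left.2 fun a ha ha' => hne ?_
    obtain ⟨b1, b2, b3⟩ := mem_offDiag.1 ha
    obtain ⟨c1, c2, -⟩ := mem_offDiag.1 ha'
    exact IsLine.eq_of_two (hL m hm) (hL m' hm') b3 (mem_filter.1 b1).2 (mem_filter.1 b2).2
      (mem_filter.1 c1).2 (mem_filter.1 c2).2

/-- restriction of a polynomial to a line -/
noncomputable def rs (a v : V3) : MvPolynomial (Fin 3) ℝ →ₐ[ℝ] Polynomial ℝ :=
  MvPolynomial.aeval fun i => Polynomial.C (v i) * Polynomial.X + Polynomial.C (a i)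

theorem eval_rs (a v : V3) (f : MvPolynomial (Fin 3) ℝ) (s : ℝ) :
    (rs a v f).eval s = MvPolynomial.eval (a + s • v) f := by
  induction f using MvPolynomial.induction_on with
  | C c => simp [rs]
  | add p q hp hq => rw [map_add, Polynomial.eval_add, hp, hq, map_add]
  | mul_X p k hp =>
    rw [map_mul, Polynomial.eval_mul, hp, map_mul]
    congr 1
    simp [rs]
    ring

theorem natDegree_rs (a v : V3) (f : MvPolynomial (Fin 3) ℝ) :
    (rs a v f).natDegree ≤ f.totalDegree := by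
  have := MvPolynomial.aeval_natDegree_le (R := ℝ) (n := 1) f le_rfl
    (fun i => Polynomial.C (v i) * Polynomial.X + Polynomial.C (a i))
    (fun i => Polynomial.natDegree_linear_le)
  simpa [rs] using this

theorem derivative_rs (a v : V3) (f : MvPolynomial (Fin 3) ℝ) :
    Polynomial.derivative (rs a v f) =
      ∑ i, Polynomial.C (v i) * rs a v (MvPolynomial.pderiv i f) := by
  induction f using MvPolynomial.induction_on with
  | C c => simp [rs]
  | add p q hp hq => simp only [map_add, hp, hq, mul_add, sum_add_distrib]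
  | mul_X p k hp =>
    have h1 : rs a v (MvPolynomial.X k) =
        Polynomial.C (v k) * Polynomial.X + Polynomial.C (a k) := by simp [rs]
    have h2 : ∀ i, rs a v (MvPolynomial.pderiv i (p * MvPolynomial.X k)) =
        rs a v (MvPolynomial.pderiv i p) * rs a v (MvPolynomial.X k) +
          if i = k then rs a v p else 0 := by
      intro i
      rw [Derivation.leibniz, MvPolynomial.pderiv_X]
      by_cases h : i = k
      · subst h
        simp [mul_comm, add_comm]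
      · simp [h, Ne.symm h, mul_comm]
    simp only [h2, mul_add, sum_add_distrib, mul_ite, mul_zero, sum_ite_eq', mem_univ, if_true]
    rw [map_mul, Polynomial.derivative_mul, hp, sum_mul, h1]
    simp only [mul_assoc]
    congr 1
    simp only [Polynomial.derivative_add, Polynomial.derivative_C, add_zero,
      Polynomial.derivative_C_mul_X]
    exact mul_comm _ _

/-- a polynomial with more zeros on a line than its degree vanishes on the line -/
theorem card_zero_le (f : MvPolynomial (Fin 3) ℝ) {l : Set V3} (hl : IsLine l)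
    (h : ∃ y ∈ l, MvPolynomial.eval y f ≠ 0) (T : Finset V3)
    (hT : ∀ x ∈ T, x ∈ l ∧ MvPolynomial.eval x f = 0) : T.card ≤ f.totalDegree := by
  obtain ⟨a, v, hv, rfl⟩ := hl
  obtain ⟨y, ⟨s, rfl⟩, hy⟩ := h
  have h0 : rs a v f ≠ 0 := fun e => hy (by rw [← eval_rs, e, Polynomial.eval_zero])
  have h1 : T ⊆ (rs a v f).roots.toFinset.image fun s => a + s • v := by
    intro x hx
    obtain ⟨⟨c, rfl⟩, hc⟩ := hT x hx
    refine mem_image.2 ⟨c, ?_, rfl⟩
    rw [Multiset.mem_toFinset, Polynomial.mem_roots h0, Polynomial.IsRoot.def, eval_rs]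
    exact hc
  exact (card_le_card h1).trans (card_image_le.trans ((Multiset.toFinset_card_le _).trans
    ((Polynomial.card_roots' _).trans (natDegree_rs a v f))))

/-- lines in the zero set are tangent -/
theorem grad_dot (f : MvPolynomial (Fin 3) ℝ) (x v : V3)
    (h : ∀ y ∈ ln x v, MvPolynomial.eval y f = 0) : grad f x ⬝ᵥ v = 0 := by
  have h0 : rs x v f = 0 := Polynomial.funext fun s => by
    rw [eval_rs, Polynomial.eval_zero]
    exact h _ ⟨s, rfl⟩
  have h1 := congrArg (Polynomial.eval 0) (derivative_rs x v f)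
  rw [h0, Polynomial.eval_finsetSum] at h1
  simp only [Polynomial.eval_mul, Polynomial.eval_C, eval_rs, zero_smul, add_zero,
    map_zero, Polynomial.eval_zero] at h1
  rw [dotProduct, h1]
  exact sum_congr rfl fun i _ => mul_comm _ _

/-- tangent plane -/
noncomputable def tp (f : MvPolynomial (Fin 3) ℝ) (x : V3) : Set V3 := pl (grad f x) (grad f x ⬝ᵥ x)

theorem mem_tp_self (f : MvPolynomial (Fin 3) ℝ) (x : V3) : x ∈ tp f x := rfl

theorem sub_tp (f : MvPolynomial (Fin 3) ℝ) {l : Set V3} (hl : IsLine l) {x : V3} (hx : x ∈ l)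
    (h : ∀ y ∈ l, MvPolynomial.eval y f = 0) : l ⊆ tp f x := by
  obtain ⟨v, -, rfl⟩ := IsLine.exists_dir hl hx
  rintro y ⟨c, rfl⟩
  change grad f x ⬝ᵥ (x + c • v) = grad f x ⬝ᵥ x
  rw [dotProduct_add, dotProduct_smul, grad_dot f x v h]
  simp

theorem par_of_perp {ν μ : V3} (hν : ν ≠ 0) (h : ∀ u : V3, ν ⬝ᵥ u = 0 → μ ⬝ᵥ u = 0) :
    ∃ c : ℝ, μ = c • ν := by
  have hn : ν ⬝ᵥ ν ≠ 0 := fun e => hν (dotProduct_self_eq_zero.1 e)
  refine ⟨(μ ⬝ᵥ ν) / (ν ⬝ᵥ ν), ?_⟩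
  set u := μ - ((μ ⬝ᵥ ν) / (ν ⬝ᵥ ν)) • ν with hu
  have h1 : ν ⬝ᵥ u = 0 := by
    rw [hu, dotProduct_sub, dotProduct_smul, smul_eq_mul, div_mul_cancel₀ _ hn, dotProduct_comm,
      sub_self]
  have h2 : u ⬝ᵥ u = 0 := by
    conv_lhs => enter [1]; rw [hu]
    rw [sub_dotProduct, smul_dotProduct, h u h1, h1]
    simp
  exact sub_eq_zero.1 (dotProduct_self_eq_zero.1 h2)

/-- a plane in the zero set through a smooth point is the tangent plane -/
theorem tp_eq (f : MvPolynomial (Fin 3) ℝ) {x y : V3} (hx : grad f x ≠ 0) (hy : grad f y ≠ 0)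
    (h : ∀ z ∈ tp f x, MvPolynomial.eval z f = 0) (hxy : y ∈ tp f x) : tp f y = tp f x := by
  have hxy' : grad f x ⬝ᵥ y = grad f x ⬝ᵥ x := hxy
  obtain ⟨c, hc⟩ := par_of_perp hx (μ := grad f y) fun u hu => grad_dot f y u (by
    rintro z ⟨s, rfl⟩
    apply h
    change grad f x ⬝ᵥ (y + s • u) = grad f x ⬝ᵥ x
    rw [dotProduct_add, dotProduct_smul, hu, hxy']
    simp)
  have hc0 : c ≠ 0 := by
    rintro rfl
    exact hy (by simpa using hc)
  ext z
  change grad f y ⬝ᵥ z = grad f y ⬝ᵥ y ↔ grad f x ⬝ᵥ z = grad f x ⬝ᵥ x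
  rw [hc, smul_dotProduct, smul_dotProduct, hxy', smul_eq_mul, smul_eq_mul, mul_right_inj' hc0]

/-- in the plane `ν^⊥`, vanishing of the determinant means parallel -/
theorem par_of_det {ν u z : V3} (hν : ν ≠ 0) (hu : u ≠ 0) (h1 : ν ⬝ᵥ u = 0) (h2 : ν ⬝ᵥ z = 0)
    (h3 : ν ⬝ᵥ (z ⨯₃ u) = 0) : ∃ c : ℝ, z = c • u := by
  have hn : ν ⬝ᵥ ν ≠ 0 := fun e => hν (dotProduct_self_eq_zero.1 e)
  have hu' : u ⬝ᵥ u ≠ 0 := fun e => hu (dotProduct_self_eq_zero.1 e)
  have h4 : z ⨯₃ u = 0 := by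
    have e : (ν ⬝ᵥ ν) • (z ⨯₃ u) = (ν ⬝ᵥ (z ⨯₃ u)) • ν +
        ν ⨯₃ ((ν ⬝ᵥ z) • u - (ν ⬝ᵥ u) • z) := by
      ext i
      fin_cases i <;> simp [cross_apply, dotProduct, Fin.sum_univ_three] <;> ring
    rw [h1, h2, h3] at e
    simpa [hn] using e
  refine ⟨(z ⬝ᵥ u) / (u ⬝ᵥ u), ?_⟩
  have e : (u ⬝ᵥ u) • z = (z ⬝ᵥ u) • u + u ⨯₃ (z ⨯₃ u) := by
    ext i
    fin_cases i <;> simp [cross_apply, dotProduct, Fin.sum_univ_three] <;> ring
  rw [h4, map_zero, add_zero] at e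
  rw [div_eq_inv_mul, ← smul_smul, ← e, smul_smul, inv_mul_cancel₀ hu', one_smul]

/-- many lines of the zero set through a smooth point: the tangent plane is in the zero set -/
theorem tp_sub (f : MvPolynomial (Fin 3) ℝ) {x : V3} (hx : grad f x ≠ 0) (L : Finset (Set V3))
    (hL : ∀ l ∈ L, IsLine l ∧ x ∈ l ∧ ∀ y ∈ l, MvPolynomial.eval y f = 0)
    (hc : f.totalDegree + 2 ≤ L.card) : ∀ z ∈ tp f x, MvPolynomial.eval z f = 0 := by
  intro y hy
  set ν := grad f x with hν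
  have hz : ν ⬝ᵥ (y - x) = 0 := by
    have : ν ⬝ᵥ y = ν ⬝ᵥ x := hy
    rw [dotProduct_sub, this, sub_self]
  have hd : ∀ l : Set V3, ∃ v : V3, l ∈ L → v ≠ 0 ∧ l = ln x v := by
    intro l
    by_cases h : l ∈ L
    · obtain ⟨v, hv⟩ := IsLine.exists_dir (hL l h).1 (hL l h).2.1
      exact ⟨v, fun _ => hv⟩
    · exact ⟨0, fun h' => absurd h' h⟩
  choose u hu using hd
  have hp : ∀ l ∈ L, ν ⬝ᵥ u l = 0 := fun l h =>
    grad_dot f x _ fun y hy => (hL l h).2.2 y (by rw [(hu l h).2]; exact hy)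
  obtain ⟨l₀, h₀⟩ : L.Nonempty := card_pos.1 (by omega)
  by_cases hy0 : y ∈ l₀
  · exact (hL l₀ h₀).2.2 y hy0
  by_contra hne
  have hdet : ∀ l ∈ L.erase l₀, ν ⬝ᵥ (u l₀ ⨯₃ u l) ≠ 0 := by
    intro l hl e
    obtain ⟨h1, h2⟩ := mem_erase.1 hl
    obtain ⟨c, hc⟩ := par_of_det hx (hu l h2).1 (hp l h2) (hp l₀ h₀) e
    have hc0 : c ≠ 0 := by
      rintro rfl
      exact (hu l₀ h₀).1 (by simpa using hc)
    apply h1
    rw [(hu l h2).2, (hu l₀ h₀).2, hc, ln_smul _ _ hc0]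
  set φ : Set V3 → V3 := fun l =>
    y + (-(ν ⬝ᵥ ((y - x) ⨯₃ u l)) / (ν ⬝ᵥ (u l₀ ⨯₃ u l))) • u l₀ with hφ
  have hmem : ∀ l ∈ L.erase l₀, φ l ∈ l := by
    intro l hl
    have h2 := (mem_erase.1 hl).2
    set s := -(ν ⬝ᵥ ((y - x) ⨯₃ u l)) / (ν ⬝ᵥ (u l₀ ⨯₃ u l)) with hs
    obtain ⟨c, hc⟩ := par_of_det (z := y - x + s • u l₀) hx (hu l h2).1 (hp l h2)
      (by rw [dotProduct_add, dotProduct_smul, hz, hp l₀ h₀]; simp)
      (by
        rw [map_add, map_smul, LinearMap.add_apply, LinearMap.smul_apply, dotProduct_add,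
          dotProduct_smul, smul_eq_mul, hs, div_mul_cancel₀ _ (hdet l hl)]
        ring)
    have : φ l ∈ ln x (u l) := ⟨c, by
      rw [← hc]
      change y + s • u l₀ = _
      abel⟩
    rwa [← (hu l h2).2] at this
  have hx' : ∀ l, φ l ≠ x := by
    intro l e
    apply hy0
    rw [(hu l₀ h₀).2]
    refine ⟨-(-(ν ⬝ᵥ ((y - x) ⨯₃ u l)) / (ν ⬝ᵥ (u l₀ ⨯₃ u l))), ?_⟩
    simp only [hφ] at e
    rw [neg_smul, ← sub_eq_add_neg, eq_sub_iff_add_eq]
    exact e
  have hinj : Set.InjOn φ (L.erase l₀ : Finset (Set V3)) := by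
    intro l hl l' hl' e
    have h1 := mem_coe.1 hl
    have h2 := mem_coe.1 hl'
    exact IsLine.eq_of_two (hL l (mem_erase.1 h1).2).1 (hL l' (mem_erase.1 h2).2).1 (hx' l)
      (hmem l h1) (hL l (mem_erase.1 h1).2).2.1 (e ▸ hmem l' h2) (hL l' (mem_erase.1 h2).2).2.1
  have hle := card_zero_le f (l := ln y (u l₀)) ⟨y, u l₀, (hu l₀ h₀).1, rfl⟩
    ⟨y, mem_ln_self _ _, hne⟩ ((L.erase l₀).image φ) (by
      intro z hz
      obtain ⟨l, hl, rfl⟩ := mem_image.1 hz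
      exact ⟨⟨_, rfl⟩, (hL l (mem_erase.1 hl).2).2.2 _ (hmem l hl)⟩)
  rw [card_image_of_injOn hinj, card_erase_of_mem h₀] at hle
  omega

end Crest.Agent.R65.L3
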