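import Crest.Agent.R65.L3.Basic

/-! Row 65, `d = 3`: Beck type bound from Szemeredi-Trotter. -/

set_option autoImplicit false

open Finset Matrix
open scoped Classical

namespace Crest.Agent.R65.L3

open Crest.Agent.R65.D3

theorem tel2 (a M : ℕ) (ha : 1 ≤ a) : ∑ k ∈ Ioc a M, 1 / (k : ℝ) ^ 2 ≤ 1 / (a : ℝ) := by
  have h : ∀ m : ℕ, ∑ k ∈ Ioc a (a + m), 1 / (k : ℝ) ^ 2 ≤ 1 / (a : ℝ) - 1 / ((a + m : ℕ) : ℝ) := by
    intro m
    induction m with
    | zero => simp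
    | succ m ih =>
      rw [← add_assoc, sum_Ioc_succ_top (by omega)]
      have h1 : (1 : ℝ) ≤ ((a + m : ℕ) : ℝ) := by exact_mod_cast (by omega : 1 ≤ a + m)
      set x : ℝ := ((a + m : ℕ) : ℝ) with hx
      have h2 : ((a + m + 1 : ℕ) : ℝ) = x + 1 := by rw [hx]; push_cast; ring
      rw [h2]
      have h3 : 1 / (x + 1) ^ 2 ≤ 1 / x - 1 / (x + 1) := by
        rw [div_sub_div _ _ (by positivity) (by positivity), div_le_div_iff₀ (by positivity)
          (by positivity)]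
        nlinarith
      linarith
  rcases le_total a M with hM | hM
  · obtain ⟨m, rfl⟩ := Nat.exists_eq_add_of_le hM
    exact (h m).trans (by
      have : (0 : ℝ) ≤ 1 / ((a + m : ℕ) : ℝ) := by positivity
      linarith)
  · rw [Ioc_eq_empty (by omega), sum_empty]
    positivity

theorem beck {C : ℝ} (hC : 0 ≤ C) (h : STFor C) : BeckFor (2 * C) := by
  intro S J σ hJ hσ hS
  set B := S.offDiag.filter fun ab => J ≤ cnt S (ln ab.1 (ab.2 - ab.1)) with hB
  set L := B.image fun ab => ln ab.1 (ab.2 - ab.1) with hL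
  have hLl : ∀ l ∈ L, IsLine l ∧ J ≤ cnt S l := by
    intro l hl
    obtain ⟨ab, hab, rfl⟩ := mem_image.1 hl
    obtain ⟨h1, h2⟩ := mem_filter.1 hab
    exact ⟨⟨_, _, sub_ne_zero.2 (mem_offDiag.1 h1).2.2.symm, rfl⟩, h2⟩
  have hJ0 : (0 : ℝ) < J := by exact_mod_cast (by omega : 0 < J)
  have hn : (0 : ℝ) ≤ S.card := Nat.cast_nonneg _
  have h1 : B.card ≤ ∑ l ∈ L, cnt S l * cnt S l := by
    have : B ⊆ L.biUnion fun l => (S.filter (· ∈ l)) ×ˢ (S.filter (· ∈ l)) := by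
      intro ab hab
      obtain ⟨h1, h2, -⟩ := mem_offDiag.1 (mem_filter.1 hab).1
      refine mem_biUnion.2 ⟨_, mem_image_of_mem _ hab, mem_product.2 ⟨mem_filter.2 ⟨h1, ?_⟩,
        mem_filter.2 ⟨h2, ?_⟩⟩⟩
      · exact mem_ln_self _ _
      · exact ⟨1, by simp⟩
    refine (card_le_card this).trans (card_biUnion_le.trans (le_of_eq ?_))
    exact sum_congr rfl fun l _ => by rw [card_product, cnt]
  rcases L.eq_empty_or_nonempty with h0 | ⟨l₀, h0⟩
  · rw [h0, sum_empty] at h1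
    have : B.card = 0 := by omega
    rw [this]
    simp only [Nat.cast_zero]
    positivity
  have hJσ : (J : ℝ) ≤ σ := le_trans (by exact_mod_cast (hLl l₀ h0).2) (hS l₀ (hLl l₀ h0).1)
  set M := ⌊σ⌋₊ with hM
  have hJM : J ≤ M := Nat.le_floor hJσ
  have h2 : ∀ l ∈ L, ((cnt S l * cnt S l : ℕ) : ℝ) =
      J * (cnt S l : ℝ) + ∑ k ∈ Ioc J M, if k ≤ cnt S l then (cnt S l : ℝ) else 0 := by
    intro l hl
    have h3 : cnt S l ≤ M := Nat.le_floor (hS l (hLl l hl).1)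
    have h4 : (Ioc J M).filter (fun k => k ≤ cnt S l) = Ioc J (cnt S l) := by
      ext k
      simp only [mem_filter, mem_Ioc]
      omega
    rw [← sum_filter, h4, sum_const, Nat.card_Ioc, nsmul_eq_mul, Nat.cast_sub (hLl l hl).2]
    push_cast
    ring
  have h3 : ∀ k ∈ Ioc J M, (∑ l ∈ L, if k ≤ cnt S l then (cnt S l : ℝ) else 0) ≤
      C * (S.card : ℝ) ^ 2 * (1 / (k : ℝ) ^ 2) + C * S.card := by
    intro k hk
    rw [← sum_filter]
    refine (h S k _ (by have := (mem_Ioc.1 hk).1; omega) fun l hl =>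
      ⟨(hLl l (mem_filter.1 hl).1).1, (mem_filter.1 hl).2⟩).trans (le_of_eq (by ring))
  have h4 := h S J L hJ hLl
  have h5 : (B.card : ℝ) ≤ J * ∑ l ∈ L, (cnt S l : ℝ) +
      ∑ k ∈ Ioc J M, ∑ l ∈ L, if k ≤ cnt S l then (cnt S l : ℝ) else 0 := by
    rw [sum_comm, mul_sum, ← sum_add_distrib, ← sum_congr rfl h2]
    exact_mod_cast h1
  have h6 := sum_le_sum h3
  rw [sum_add_distrib, ← mul_sum, sum_const, Nat.card_Ioc, nsmul_eq_mul, Nat.cast_sub hJM] at h6
  have h7 := mul_le_mul_of_nonneg_left (tel2 J M (by omega))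
    (by positivity : 0 ≤ C * (S.card : ℝ) ^ 2)
  have h8 := mul_le_mul_of_nonneg_left h4 hJ0.le
  have h9 : (J : ℝ) * (C * ((S.card : ℝ) ^ 2 / (J : ℝ) ^ 2 + S.card)) =
      C * ((S.card : ℝ) ^ 2 / J) + J * (C * S.card) := by
    field_simp
  have h10 : (M : ℝ) ≤ σ := Nat.floor_le hσ
  have h11 : C * (S.card : ℝ) ^ 2 * (1 / J) = C * ((S.card : ℝ) ^ 2 / J) := by ring
  have h12 := mul_le_mul_of_nonneg_right h10 (mul_nonneg hC hn)
  have h13 : 0 ≤ C * (S.card * σ) := by positivity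
  nlinarith

end Crest.Agent.R65.L3
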