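import Crest.Agent.R65.D3Defs
import Crest.Agent.R33.Ham

/-! Row 65, `d = 3`: polynomial partitioning in `ℝ³`. -/

set_option autoImplicit false

open Finset
open scoped Classical

namespace Crest.Agent.R65.L3

open Crest.Agent.R65.D3

/-- the exponent vector -/
noncomputable def ex {d : ℕ} (k : Fin 3 → Fin (d + 1)) : Fin 3 →₀ ℕ :=
  Finsupp.equivFunOnFinite.symm fun i => (k i : ℕ)

theorem ex_inj {d : ℕ} : Function.Injective (ex (d := d)) := by
  intro k k' h
  funext i
  have h0 := DFunLike.congr_fun h i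
  simp only [ex, Finsupp.equivFunOnFinite_symm_apply_apply] at h0
  exact Fin.ext h0

theorem ham3 {ι : Type} [Fintype ι] (A : ι → Finset V3) (d : ℕ)
    (hd : Fintype.card ι < (d + 1) ^ 3) :
    ∃ f : MvPolynomial (Fin 3) ℝ, f ≠ 0 ∧ f.totalDegree ≤ 3 * d ∧ ∀ i,
      2 * ((A i).filter fun p => 0 < MvPolynomial.eval p f).card ≤ (A i).card ∧
      2 * ((A i).filter fun p => MvPolynomial.eval p f < 0).card ≤ (A i).card := by
  obtain ⟨a, ha, h⟩ := Crest.Agent.R33.Ham.linear (κ := Fin 3 → Fin (d + 1)) A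
    (fun p k => ∏ i, p i ^ (k i : ℕ)) (by simpa using hd)
  refine ⟨∑ k, MvPolynomial.monomial (ex k) (a k), ?_, ?_, ?_⟩
  · intro h0
    apply ha
    funext k
    have := congrArg (MvPolynomial.coeff (ex k)) h0
    rw [MvPolynomial.coeff_sum] at this
    simpa [MvPolynomial.coeff_monomial, ex_inj.eq_iff] using this
  · refine (MvPolynomial.totalDegree_finsetSum _ _).trans (Finset.sup_le fun k _ => ?_)
    refine (MvPolynomial.totalDegree_monomial_le _ _).trans ?_
    rw [Finsupp.sum_fintype _ _ (by simp), Fin.sum_univ_three]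
    have h0 := (k 0).2
    have h1 := (k 1).2
    have h2 := (k 2).2
    simp only [ex, id, Finsupp.equivFunOnFinite_symm_apply_apply]
    omega
  · have e : ∀ p : V3, MvPolynomial.eval p
        (∑ k : Fin 3 → Fin (d + 1), MvPolynomial.monomial (ex k) (a k)) =
        ∑ k : Fin 3 → Fin (d + 1), a k * ∏ i, p i ^ (k i : ℕ) := by
      intro p
      rw [map_sum]
      refine sum_congr rfl (fun k _ => ?_)
      rw [MvPolynomial.eval_monomial, Finsupp.prod_fintype _ _ (by simp)]
      simp [ex]
    intro i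
    simp only [e]
    exact h i

theorem part_aux (P : Finset V3) (j : ℕ) : ∃ f : Fin j → MvPolynomial (Fin 3) ℝ,
    (∀ i, f i ≠ 0) ∧ (∑ i, (f i).totalDegree) ≤ ∑ i ∈ range j, 6 * 2 ^ (i / 3) ∧
    ∀ sg : Fin j → Bool, (P.filter (InCell3 f sg)).card * 2 ^ j ≤ P.card := by
  induction j with
  | zero =>
    refine ⟨Fin.elim0, fun i => i.elim0, by simp, fun sg => ?_⟩
    simpa using Finset.card_filter_le _ _
  | succ j ih =>
    obtain ⟨f, hf0, hfd, hfc⟩ := ih
    have hlt : Fintype.card (Fin j → Bool) < (2 * 2 ^ (j / 3) + 1) ^ 3 := by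
      have h1 : Fintype.card (Fin j → Bool) = 2 ^ j := by simp
      have h2 : 2 ^ j ≤ (2 * 2 ^ (j / 3)) ^ 3 := by
        rw [← pow_succ', ← pow_mul]
        exact Nat.pow_le_pow_right (by norm_num) (by omega)
      rw [h1]
      exact h2.trans_lt (Nat.pow_lt_pow_left (by omega) (by norm_num))
    obtain ⟨g, hg0, hgd, hgc⟩ := ham3 (fun sg : Fin j → Bool => P.filter (InCell3 f sg))
      (2 * 2 ^ (j / 3)) hlt
    refine ⟨Fin.cons g f, fun i => ?_, ?_, fun sg => ?_⟩
    · refine Fin.cases ?_ (fun i => ?_) i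
      · simpa using hg0
      · simpa using hf0 i
    · rw [Fin.sum_univ_succ, sum_range_succ]
      simp only [Fin.cons_zero, Fin.cons_succ]
      omega
    · have h1 := hfc (Fin.tail sg)
      have h2 : 2 * (P.filter (InCell3 (Fin.cons g f : Fin (j + 1) → _) sg)).card ≤
          (P.filter (InCell3 f (Fin.tail sg))).card := by
        have hsub : ∀ p, InCell3 (Fin.cons g f : Fin (j + 1) → _) sg p →
            InCell3 f (Fin.tail sg) p := fun p hp i => hp i.succ
        cases h : sg 0 with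
        | true =>
          refine le_trans (Nat.mul_le_mul_left _ (Finset.card_le_card fun p hp => ?_))
            (hgc (Fin.tail sg)).1
          rw [Finset.mem_filter] at hp
          refine Finset.mem_filter.2 ⟨Finset.mem_filter.2 ⟨hp.1, hsub p hp.2⟩, ?_⟩
          simpa [h] using hp.2 0
        | false =>
          refine le_trans (Nat.mul_le_mul_left _ (Finset.card_le_card fun p hp => ?_))
            (hgc (Fin.tail sg)).2
          rw [Finset.mem_filter] at hp
          refine Finset.mem_filter.2 ⟨Finset.mem_filter.2 ⟨hp.1, hsub p hp.2⟩, ?_⟩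
          simpa [h] using hp.2 0
      refine le_trans ?_ ((Nat.mul_le_mul_right _ h2).trans h1)
      rw [pow_succ]
      exact le_of_eq (by ring)

theorem sum_deg (m : ℕ) : ∑ i ∈ range (3 * m), 6 * 2 ^ (i / 3) + 18 = 18 * 2 ^ m := by
  induction m with
  | zero => simp
  | succ m ih =>
    rw [show 3 * (m + 1) = 3 * m + 1 + 1 + 1 by ring, sum_range_succ, sum_range_succ,
      sum_range_succ, show (3 * m) / 3 = m by omega, show (3 * m + 1) / 3 = m by omega,
      show (3 * m + 1 + 1) / 3 = m by omega, pow_succ]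
    omega

/-- **Polynomial partition in `ℝ³`**: `8 ^ m` sign cells, total degree `≤ 18 (2 ^ m - 1)`. -/
theorem part3 (P : Finset V3) (m : ℕ) : ∃ f : Fin (3 * m) → MvPolynomial (Fin 3) ℝ,
    (∀ i, f i ≠ 0) ∧ (∑ i, (f i).totalDegree) + 18 ≤ 18 * 2 ^ m ∧
    ∀ sg : Fin (3 * m) → Bool, (P.filter (InCell3 f sg)).card * 8 ^ m ≤ P.card := by
  obtain ⟨f, h0, h1, h2⟩ := part_aux P (3 * m)
  refine ⟨f, h0, ?_, fun sg => ?_⟩
  · have := sum_deg m
    omega
  · have := h2 sg
    rwa [pow_mul] at this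

end Crest.Agent.R65.L3
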