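import Crest.Agent.R65.L3.Zero
import Crest.Agent.R65.L3.Part
import Crest.Agent.R65.L3.Beck
import Crest.Agent.R65.Pen.Bridge
import Crest.Agent.R33.Cross

/-! Row 65, `d = 3`: rich lines outside rich planes, and the Beck type bound. -/

set_option autoImplicit false

open Finset Matrix
open scoped Classical

namespace Crest.Agent.R65.L3

open Crest.Agent.R65.D3

theorem exists_cell {j : ℕ} (f : Fin j → MvPolynomial (Fin 3) ℝ) (p : V3)
    (hp : MvPolynomial.eval p (∏ i, f i) ≠ 0) : ∃ sg : Fin j → Bool, InCell3 f sg p := by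
  refine ⟨fun i => decide (0 < MvPolynomial.eval p (f i)), fun i => ?_⟩
  have hi : MvPolynomial.eval p (f i) ≠ 0 := by
    intro h0
    apply hp
    rw [map_prod]
    exact prod_eq_zero (mem_univ i) h0
  by_cases h : 0 < MvPolynomial.eval p (f i)
  · simp [h]
  · simp only [h, decide_false, Bool.false_eq_true, if_false]
    exact lt_of_le_of_ne (not_lt.mp h) hi

/-- a line meets few cells -/
theorem cross {j : ℕ} (f : Fin j → MvPolynomial (Fin 3) ℝ) {l : Set V3} (hl : IsLine l) :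
    (univ.filter fun sg : Fin j → Bool => ∃ p ∈ l, InCell3 f sg p).card ≤
      (∑ i, (f i).totalDegree) + 1 := by
  obtain ⟨a, v, -, rfl⟩ := hl
  refine le_trans (card_le_card fun sg hsg => ?_)
    ((Crest.Agent.R33.cross_card_sign fun i => rs a v (f i)).trans
      (Nat.add_le_add_right (sum_le_sum fun i _ => natDegree_rs a v (f i)) 1))
  obtain ⟨p, ⟨s, rfl⟩, hp⟩ := (mem_filter.1 hsg).2
  refine mem_filter.2 ⟨mem_univ _, s, fun i => ?_⟩
  rw [eval_rs]
  exact hp i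

/-- one line outside the zero set -/
theorem one_line {j : ℕ} (f : Fin j → MvPolynomial (Fin 3) ℝ) {l : Set V3} (hl : IsLine l)
    (Q : Finset V3) (h0 : ∃ p ∈ l, MvPolynomial.eval p (∏ i, f i) ≠ 0) :
    cnt Q l ≤ 2 * (∑ i, (f i).totalDegree) + 1 +
      ∑ sg : Fin j → Bool, ((Q.filter (InCell3 f sg)).filter (· ∈ l)).offDiag.card := by
  set δ := ∑ i, (f i).totalDegree with hδ
  set T := Q.filter (· ∈ l) with hT
  have hdeg : (∏ i, f i).totalDegree ≤ δ := MvPolynomial.totalDegree_finsetProd _ _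
  have hZ : (T.filter fun p => MvPolynomial.eval p (∏ i, f i) = 0).card ≤ δ :=
    (card_zero_le _ hl h0 _ fun p hp =>
      ⟨(mem_filter.1 (mem_filter.1 hp).1).2, (mem_filter.1 hp).2⟩).trans hdeg
  have hcov : T ⊆ (T.filter fun p => MvPolynomial.eval p (∏ i, f i) = 0) ∪
      univ.biUnion fun sg : Fin j → Bool => (Q.filter (InCell3 f sg)).filter (· ∈ l) := by
    intro p hp
    by_cases h : MvPolynomial.eval p (∏ i, f i) = 0
    · exact mem_union_left _ (mem_filter.mpr ⟨hp, h⟩)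
    · obtain ⟨sg, hsg⟩ := exists_cell f p h
      exact mem_union_right _ (mem_biUnion.mpr ⟨sg, mem_univ _, mem_filter.mpr
        ⟨mem_filter.2 ⟨(mem_filter.1 hp).1, hsg⟩, (mem_filter.1 hp).2⟩⟩)
  have h1 : T.card ≤ δ + ∑ sg : Fin j → Bool, ((Q.filter (InCell3 f sg)).filter (· ∈ l)).card :=
    (card_le_card hcov).trans ((card_union_le _ _).trans (add_le_add hZ card_biUnion_le))
  have h2 : ∀ sg : Fin j → Bool, ((Q.filter (InCell3 f sg)).filter (· ∈ l)).card ≤
      (if ∃ p ∈ l, InCell3 f sg p then 1 else 0) +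
        ((Q.filter (InCell3 f sg)).filter (· ∈ l)).offDiag.card := by
    intro sg
    rw [offDiag_card]
    by_cases hx : ∃ p ∈ l, InCell3 f sg p
    · rw [if_pos hx]
      generalize ((Q.filter (InCell3 f sg)).filter (· ∈ l)).card = a
      rcases Nat.lt_or_ge a 2 with h | h
      · omega
      · have := Nat.mul_le_mul_right a h
        omega
    · have : (Q.filter (InCell3 f sg)).filter (· ∈ l) = ∅ := by
        rw [filter_eq_empty_iff]
        intro p hp hc
        exact hx ⟨p, hc, (mem_filter.1 hp).2⟩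
      rw [this]
      simp
  have h3 : ∑ sg : Fin j → Bool, (if ∃ p ∈ l, InCell3 f sg p then 1 else 0) ≤ δ + 1 := by
    rw [← sum_filter, sum_const, smul_eq_mul, mul_one]
    exact cross f hl
  have h4 := sum_le_sum fun sg (_ : sg ∈ (univ : Finset (Fin j → Bool))) => h2 sg
  rw [sum_add_distrib] at h4
  change T.card ≤ _
  omega

theorem l3 {C : ℝ} (hC : 0 ≤ C) (h : STFor C) : L3For (2 * 288 ^ 3 + 256 * (C + 1)) := by
  intro Q k w L hk hL
  set m := Nat.log 2 ((k - 2) / 144 + 1) with hm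
  have hm1 : 2 ^ m ≤ (k - 2) / 144 + 1 := Nat.pow_log_le_self 2 (by omega)
  have hm2 : (k - 2) / 144 + 1 < 2 ^ (m + 1) := Nat.lt_pow_succ_log_self (by norm_num) _
  obtain ⟨f, hf0, hfd, hfc⟩ := part3 Q m
  set δ := ∑ i, (f i).totalDegree with hδ
  have hδk : 8 * δ + 2 ≤ k := by omega
  have hk2 : k ≤ 288 * 2 ^ m := by
    rw [pow_succ] at hm2
    omega
  set F := ∏ i, f i with hF
  have hF0 : F ≠ 0 := prod_ne_zero_iff.2 fun i _ => hf0 i
  have hdeg : F.totalDegree ≤ δ := MvPolynomial.totalDegree_finsetProd _ _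
  have hk0 : (0 : ℝ) < k := by exact_mod_cast (by omega : 0 < k)
  have hn : (0 : ℝ) ≤ Q.card := Nat.cast_nonneg _
  have hx1 : (0 : ℝ) ≤ (Q.card : ℝ) ^ 2 / (k : ℝ) ^ 3 := by positivity
  have hx2 : (0 : ℝ) ≤ (Q.card : ℝ) * w / (k : ℝ) ^ 2 := by positivity
  have hx3 : (0 : ℝ) ≤ (Q.card : ℝ) * k := by positivity
  -- lines outside the zero set
  have hA : ∑ l ∈ L.filter (fun l => ¬ ∀ y ∈ l, MvPolynomial.eval y F = 0), (cnt Q l : ℝ) ≤
      2 * 288 ^ 3 * ((Q.card : ℝ) ^ 2 / (k : ℝ) ^ 3) := by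
    set L' := L.filter (fun l => ¬ ∀ y ∈ l, MvPolynomial.eval y F = 0) with hL'
    have h1 : ∑ l ∈ L', cnt Q l ≤ 2 * ∑ l ∈ L', ∑ sg : Fin (3 * m) → Bool,
        ((Q.filter (InCell3 f sg)).filter (· ∈ l)).offDiag.card := by
      rw [mul_sum]
      refine sum_le_sum fun l hl => ?_
      obtain ⟨h2, h3⟩ := mem_filter.1 hl
      push Not at h3
      have h4 := one_line f (hL l h2).1 Q h3
      have h5 := (hL l h2).2.1
      rw [← hδ] at h4
      omega
    rw [sum_comm] at h1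
    have h2 : ∀ sg : Fin (3 * m) → Bool, (∑ l ∈ L',
        ((Q.filter (InCell3 f sg)).filter (· ∈ l)).offDiag.card) * (8 ^ m * 8 ^ m) ≤
        Q.card * Q.card := by
      intro sg
      have h3 := sum_offDiag_le L' (fun l hl => (hL l (mem_filter.1 hl).1).1)
        (Q.filter (InCell3 f sg))
      refine (Nat.mul_le_mul_right _ h3).trans ?_
      rw [mul_mul_mul_comm]
      exact Nat.mul_le_mul (hfc sg) (hfc sg)
    have h3 := sum_le_card_nsmul univ _ _ fun sg _ => h2 sg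
    rw [← sum_mul, card_univ, smul_eq_mul] at h3
    have h4 : Fintype.card (Fin (3 * m) → Bool) = 8 ^ m := by simp [pow_mul]
    rw [h4, ← mul_assoc, mul_comm (8 ^ m)] at h3
    have h5 := Nat.le_of_mul_le_mul_right h3 (by positivity)
    have h6 : (∑ l ∈ L', cnt Q l) * k ^ 3 ≤ 2 * 288 ^ 3 * Q.card ^ 2 := by
      have h7 : k ^ 3 ≤ 288 ^ 3 * 8 ^ m := by
        have := Nat.pow_le_pow_left hk2 3
        rwa [mul_pow, ← pow_mul, mul_comm m, pow_mul] at this
      calc _ ≤ (2 * ∑ sg : Fin (3 * m) → Bool, ∑ l ∈ L',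
            ((Q.filter (InCell3 f sg)).filter (· ∈ l)).offDiag.card) * (288 ^ 3 * 8 ^ m) :=
            Nat.mul_le_mul h1 h7
        _ = 2 * 288 ^ 3 * ((∑ sg : Fin (3 * m) → Bool, ∑ l ∈ L',
            ((Q.filter (InCell3 f sg)).filter (· ∈ l)).offDiag.card) * 8 ^ m) := by ring
        _ ≤ _ := by rw [sq]; exact Nat.mul_le_mul_left _ h5
    rw [← mul_div_assoc, le_div_iff₀ (by positivity)]
    exact_mod_cast h6
  -- lines in the zero set
  have hB : ∑ l ∈ L.filter (fun l => ∀ y ∈ l, MvPolynomial.eval y F = 0), (cnt Q l : ℝ) ≤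
      256 * (C + 1) * ((Q.card : ℝ) * w / (k : ℝ) ^ 2 + Q.card * k) := by
    rcases (L.filter (fun l => ∀ y ∈ l, MvPolynomial.eval y F = 0)).eq_empty_or_nonempty with
      h0 | ⟨l₀, h0⟩
    · rw [h0, sum_empty]
      positivity
    have hk8 : 10 ≤ k := by
      obtain ⟨h1, h2⟩ := mem_filter.1 h0
      obtain ⟨⟨a, v, -, e⟩, -⟩ := hL l₀ h1
      obtain ⟨i, hi⟩ := exists_pderiv hF0 (h2 a (e ▸ mem_ln_self a v))
      have := deg_pderiv hi
      omega
    have h1 := zero hC h δ (k / 4) w (by omega) (δ + 1) F hF0 (by omega) hdeg Q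
      (L.filter fun l => ∀ y ∈ l, MvPolynomial.eval y F = 0) fun l hl => by
        obtain ⟨a, b, c⟩ := hL l (mem_filter.1 hl).1
        exact ⟨a, (mem_filter.1 hl).2, by omega, by omega, c⟩
    refine h1.trans ?_
    have h2 : (δ : ℝ) + 1 ≤ k := by exact_mod_cast (by omega : δ + 1 ≤ k)
    have h3 : (k : ℝ) ≤ 8 * ((k / 4 : ℕ) : ℝ) := by exact_mod_cast (by omega : k ≤ 8 * (k / 4))
    have h4 : (w : ℝ) / ((k / 4 : ℕ) : ℝ) ^ 2 ≤ 64 * (w / (k : ℝ) ^ 2) := by
      have h5 : (0 : ℝ) < ((k / 4 : ℕ) : ℝ) := by linarith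
      rw [← mul_div_assoc, div_le_div_iff₀ (by positivity) (by positivity)]
      have h6 : (k : ℝ) ^ 2 ≤ (8 * ((k / 4 : ℕ) : ℝ)) ^ 2 := by gcongr
      have := mul_le_mul_of_nonneg_left h6 (Nat.cast_nonneg w)
      nlinarith
    have h5 : (1 : ℝ) ≤ k := by exact_mod_cast (by omega : 1 ≤ k)
    have h6 : (0 : ℝ) ≤ w / (k : ℝ) ^ 2 := by positivity
    have h7 : 4 * ((δ + 1) + C * ((w : ℝ) / ((k / 4 : ℕ) : ℝ) ^ 2 + 1)) ≤
        256 * (C + 1) * (w / (k : ℝ) ^ 2 + k) := by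
      have := mul_le_mul_of_nonneg_left h4 hC
      nlinarith [mul_nonneg hC h6, mul_nonneg hC (sub_nonneg.2 h5)]
    refine (mul_le_mul_of_nonneg_right h7 hn).trans (le_of_eq ?_)
    ring
  rw [← sum_filter_add_sum_filter_not L (fun l => ∀ y ∈ l, MvPolynomial.eval y F = 0)]
  have h1 : 0 ≤ (C + 1) * ((Q.card : ℝ) ^ 2 / (k : ℝ) ^ 3) := by positivity
  nlinarith

end Crest.Agent.R65.L3

namespace Crest.Agent.R65.D3

/-- LEMMA 3D -/
theorem l3Stmt : ∃ C : ℝ, 1 ≤ C ∧ L3For C := by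
  obtain ⟨C, hC, h⟩ := stStmt
  exact ⟨_, by linarith, L3.l3 (by linarith) h⟩

/-- Beck type bound -/
theorem beckStmt : ∃ C : ℝ, 1 ≤ C ∧ BeckFor C := by
  obtain ⟨C, hC, h⟩ := stStmt
  exact ⟨_, by linarith, L3.beck (by linarith) h⟩

end Crest.Agent.R65.D3
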