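import Crest.Agent.R65.L3.Basic

/-! Row 65, `d = 3`: rich lines inside the zero set of a polynomial. -/

set_option autoImplicit false

open Finset Matrix
open scoped Classical

namespace Crest.Agent.R65.L3

open Crest.Agent.R65.D3

theorem cnt_mono {Q Q' : Finset V3} (h : Q ⊆ Q') (A : Set V3) : cnt Q A ≤ cnt Q' A :=
  card_le_card (filter_subset_filter _ h)

theorem cnt_split (Q : Finset V3) (p : V3 → Prop) [DecidablePred p] (A : Set V3) :
    cnt Q A = cnt (Q.filter p) A + cnt (Q.filter fun x => ¬ p x) A := by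
  unfold cnt
  rw [filter_comm, filter_comm (fun x => ¬ p x), card_filter_add_card_filter_not]

theorem sum_cnt (Q : Finset V3) (L : Finset (Set V3)) :
    ∑ l ∈ L, cnt Q l = ∑ x ∈ Q, (L.filter fun l => x ∈ l).card := by
  simp only [cnt, card_filter]
  exact sum_comm

/-- flat points: the lines lie in tangent planes -/
theorem flat {C : ℝ} (hC : 0 ≤ C) (h : STFor C) (F : MvPolynomial (Fin 3) ℝ) (κ w : ℕ)
    (hκ : 2 ≤ κ) (Q : Finset V3) (hQ : ∀ x ∈ Q, grad F x ≠ 0)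
    (hf : ∀ x ∈ Q, ∀ z ∈ tp F x, MvPolynomial.eval z F = 0) (L : Finset (Set V3))
    (hL : ∀ l ∈ L, IsLine l ∧ (∀ y ∈ l, MvPolynomial.eval y F = 0) ∧ κ ≤ cnt Q l ∧
      ∀ A, IsPlane A → l ⊆ A → cnt Q A < w) :
    ∑ l ∈ L, (cnt Q l : ℝ) ≤ C * ((w : ℝ) / (κ : ℝ) ^ 2 + 1) * Q.card := by
  have hex : ∀ l : Set V3, ∃ x : V3, l ∈ L → x ∈ Q ∧ x ∈ l := by
    intro l
    by_cases hl : l ∈ L
    · obtain ⟨x, hx⟩ : (Q.filter (· ∈ l)).Nonempty :=
        card_pos.1 (by have := (hL l hl).2.2.1; unfold cnt at this; omega)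
      exact ⟨x, fun _ => mem_filter.1 hx⟩
    · exact ⟨0, fun h' => absurd h' hl⟩
  choose ξ hξ using hex
  set A : Set V3 → Set V3 := fun l => tp F (ξ l) with hA
  have hsub : ∀ l ∈ L, l ⊆ A l := fun l hl => sub_tp F (hL l hl).1 (hξ l hl).2 (hL l hl).2.1
  have hcnt : ∀ l ∈ L, cnt (Q.filter fun x => tp F x = A l) l = cnt Q l := by
    intro l hl
    unfold cnt
    congr 1
    ext x
    simp only [mem_filter]
    refine ⟨fun h => ⟨h.1.1, h.2⟩, fun h => ⟨⟨h.1, ?_⟩, h.2⟩⟩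
    exact tp_eq F (hQ _ (hξ l hl).1) (hQ x h.1) (hf _ (hξ l hl).1) (hsub l hl h.2)
  have hκ0 : (0 : ℝ) < κ := by exact_mod_cast (by omega : 0 < κ)
  have h1 : ∀ B ∈ L.image A, ∑ l ∈ L.filter (fun l => A l = B), (cnt Q l : ℝ) ≤
      C * ((w : ℝ) / (κ : ℝ) ^ 2 + 1) * ((Q.filter fun x => tp F x = B).card : ℝ) := by
    intro B hB
    obtain ⟨l₀, h₀, rfl⟩ := mem_image.1 hB
    have e : ∀ l ∈ L.filter (fun l => A l = A l₀),
        cnt (Q.filter fun x => tp F x = A l₀) l = cnt Q l := by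
      intro l hl
      rw [← (mem_filter.1 hl).2]
      exact hcnt l (mem_filter.1 hl).1
    have h2 := h (Q.filter fun x => tp F x = A l₀) κ (L.filter fun l => A l = A l₀) hκ
      fun l hl => ⟨(hL l (mem_filter.1 hl).1).1, by
        rw [e l hl]
        exact (hL l (mem_filter.1 hl).1).2.2.1⟩
    rw [sum_congr rfl fun l hl => by rw [e l hl]] at h2
    have h3 : (Q.filter fun x => tp F x = A l₀).card ≤ w := by
      refine le_trans (card_le_card fun x hx => ?_) ((hL l₀ h₀).2.2.2 (A l₀)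
        ⟨_, _, hQ _ (hξ l₀ h₀).1, rfl⟩ (hsub l₀ h₀)).le
      obtain ⟨h4, h5⟩ := mem_filter.1 hx
      exact mem_filter.2 ⟨h4, h5 ▸ mem_tp_self F x⟩
    have h4 : ((Q.filter fun x => tp F x = A l₀).card : ℝ) ≤ w := by exact_mod_cast h3
    set a : ℝ := ((Q.filter fun x => tp F x = A l₀).card : ℝ) with ha
    have ha0 : 0 ≤ a := Nat.cast_nonneg _
    refine h2.trans ?_
    rw [mul_assoc]
    refine mul_le_mul_of_nonneg_left ?_ hC
    rw [add_mul, one_mul, div_mul_eq_mul_div, sq a]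
    gcongr
  rw [← sum_fiberwise_of_maps_to (g := A) (t := L.image A) fun l hl => mem_image_of_mem _ hl]
  refine (sum_le_sum h1).trans ?_
  rw [← mul_sum]
  refine mul_le_mul_of_nonneg_left ?_ (by positivity)
  have h5 := sum_card_fiberwise_eq_card_filter Q (L.image A) (tp F)
  have h6 : ∑ B ∈ L.image A, (Q.filter fun x => tp F x = B).card ≤ Q.card := by
    refine le_trans (le_of_eq ?_) (card_filter_le Q fun x => tp F x ∈ L.image A)
    convert h5
  exact_mod_cast h6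

/-- smooth points -/
theorem smooth {C : ℝ} (hC : 0 ≤ C) (h : STFor C) (F : MvPolynomial (Fin 3) ℝ) (t κ w : ℕ)
    (ht : F.totalDegree ≤ t) (hκ : 2 ≤ κ) (Q : Finset V3) (hQ : ∀ x ∈ Q, grad F x ≠ 0)
    (L : Finset (Set V3))
    (hL : ∀ l ∈ L, IsLine l ∧ (∀ y ∈ l, MvPolynomial.eval y F = 0) ∧ 2 * κ ≤ cnt Q l ∧
      ∀ A, IsPlane A → l ⊆ A → cnt Q A < w) :
    ∑ l ∈ L, (cnt Q l : ℝ) ≤ 2 * ((t + 1) + C * ((w : ℝ) / (κ : ℝ) ^ 2 + 1)) * Q.card := by
  set p : V3 → Prop := fun x => t + 2 ≤ (L.filter fun l => x ∈ l).card with hp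
  set Fl := Q.filter p with hFl
  set N := Q.filter fun x => ¬ p x with hN
  have h1 : ∑ l ∈ L, cnt N l ≤ (t + 1) * Q.card := by
    rw [sum_cnt]
    refine (sum_le_card_nsmul _ _ (t + 1) fun x hx => ?_).trans ?_
    · have := (mem_filter.1 hx).2
      simp only [hp] at this
      omega
    · rw [smul_eq_mul, mul_comm]
      exact Nat.mul_le_mul_left _ (card_filter_le _ _)
  set L₁ := L.filter fun l => cnt N l ≤ cnt Fl l with hL₁
  have h2 := flat hC h F κ w hκ Fl (fun x hx => hQ x (mem_filter.1 hx).1)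
    (fun x hx => tp_sub F (hQ x (mem_filter.1 hx).1) (L.filter fun l => x ∈ l)
      (fun l hl => ⟨(hL l (mem_filter.1 hl).1).1, (mem_filter.1 hl).2,
        (hL l (mem_filter.1 hl).1).2.1⟩)
      (by have := (mem_filter.1 hx).2; simp only [hp] at this; omega)) L₁
    (fun l hl => by
      obtain ⟨h3, h4⟩ := mem_filter.1 hl
      obtain ⟨a, b, c, d⟩ := hL l h3
      refine ⟨a, b, ?_, fun A hA hs => (cnt_mono (filter_subset _ _) A).trans_lt (d A hA hs)⟩
      have := cnt_split Q p l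
      rw [← hFl, ← hN] at this
      omega)
  have h3 : ∑ l ∈ L, cnt Q l ≤ 2 * ∑ l ∈ L, cnt N l + 2 * ∑ l ∈ L₁, cnt Fl l := by
    rw [hL₁, sum_filter, mul_sum, mul_sum, ← sum_add_distrib]
    refine sum_le_sum fun l _ => ?_
    have := cnt_split Q p l
    rw [← hFl, ← hN] at this
    split_ifs <;> omega
  have h4 : (Fl.card : ℝ) ≤ Q.card := by exact_mod_cast card_filter_le _ _
  have h5 := mul_le_mul_of_nonneg_left h4
    (by positivity : 0 ≤ C * ((w : ℝ) / (κ : ℝ) ^ 2 + 1))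
  have h6 : ∑ l ∈ L, (cnt N l : ℝ) ≤ (t + 1) * Q.card := by exact_mod_cast h1
  have h7 : ∑ l ∈ L, (cnt Q l : ℝ) ≤ 2 * ∑ l ∈ L, (cnt N l : ℝ) + 2 * ∑ l ∈ L₁, (cnt Fl l : ℝ) := by
    exact_mod_cast h3
  linarith

theorem exists_pderiv {F : MvPolynomial (Fin 3) ℝ} (hF : F ≠ 0) {y : V3}
    (hy : MvPolynomial.eval y F = 0) : ∃ i, MvPolynomial.pderiv i F ≠ 0 := by
  by_contra hne
  push Not at hne
  apply hF
  refine MvPolynomial.funext fun z => ?_
  have h1 := derivative_rs y (z - y) F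
  simp only [hne, map_zero, mul_zero, sum_const_zero] at h1
  have h2 := Polynomial.eq_C_of_derivative_eq_zero h1
  have h3 := eval_rs y (z - y) F 0
  have h4 := eval_rs y (z - y) F 1
  rw [h2, Polynomial.eval_C] at h3 h4
  rw [zero_smul, add_zero, hy] at h3
  rw [one_smul, add_sub_cancel] at h4
  rw [← h4, h3, map_zero]

theorem deg_pderiv {F : MvPolynomial (Fin 3) ℝ} {i : Fin 3} (h : MvPolynomial.pderiv i F ≠ 0) :
    (MvPolynomial.pderiv i F).totalDegree < F.totalDegree := by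
  obtain ⟨m, hm, e⟩ := Finset.exists_mem_eq_sup _ (MvPolynomial.support_nonempty.2 h)
    (fun s : Fin 3 →₀ ℕ => s.sum fun _ e => e)
  have h1 : (MvPolynomial.pderiv i F).totalDegree = m.sum fun _ e => e := e
  rw [MvPolynomial.mem_support_iff, MvPolynomial.coeff_pderiv] at hm
  have h2 : m + Finsupp.single i 1 ∈ F.support :=
    MvPolynomial.mem_support_iff.2 (left_ne_zero_of_mul hm)
  have h3 := MvPolynomial.le_totalDegree h2
  rw [Finsupp.sum_add_index' (by simp) (by simp), Finsupp.sum_single_index rfl] at h3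
  omega

/-- rich lines in a zero set -/
theorem zero {C : ℝ} (hC : 0 ≤ C) (h : STFor C) (t κ w : ℕ) (hκ : 2 ≤ κ) (e : ℕ) :
    ∀ F : MvPolynomial (Fin 3) ℝ, F ≠ 0 → F.totalDegree < e → F.totalDegree ≤ t →
    ∀ (Q : Finset V3) (L : Finset (Set V3)),
    (∀ l ∈ L, IsLine l ∧ (∀ y ∈ l, MvPolynomial.eval y F = 0) ∧ 4 * κ ≤ cnt Q l ∧
      2 * t ≤ cnt Q l ∧ ∀ A, IsPlane A → l ⊆ A → cnt Q A < w) →
    ∑ l ∈ L, (cnt Q l : ℝ) ≤ 4 * ((t + 1) + C * ((w : ℝ) / (κ : ℝ) ^ 2 + 1)) * Q.card := by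
  induction e with
  | zero => intro F _ h0; omega
  | succ e ih =>
    intro F hF he ht Q L hL
    rcases L.eq_empty_or_nonempty with h0 | ⟨l₀, h0⟩
    · rw [h0, sum_empty]
      positivity
    obtain ⟨i, hi⟩ : ∃ i, MvPolynomial.pderiv i F ≠ 0 := by
      obtain ⟨⟨a, v, -, e⟩, h1, -⟩ := hL l₀ h0
      exact exists_pderiv hF (h1 a (e ▸ mem_ln_self a v))
    have hd := deg_pderiv hi
    set G := MvPolynomial.pderiv i F with hG
    set p : V3 → Prop := fun x => MvPolynomial.eval x G = 0 with hp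
    set Q₁ := Q.filter p with hQ₁
    set Q₀ := Q.filter fun x => ¬ p x with hQ₀
    have e1 : ∀ l ∈ L.filter (fun l => ∀ y ∈ l, p y), cnt Q₁ l = cnt Q l := by
      intro l hl
      unfold cnt
      congr 1
      ext x
      simp only [hQ₁, mem_filter]
      exact ⟨fun h => ⟨h.1.1, h.2⟩, fun h => ⟨⟨h.1, (mem_filter.1 hl).2 x h.2⟩, h.2⟩⟩
    have h1 := ih G hi (by omega) (by omega) Q₁ (L.filter fun l => ∀ y ∈ l, p y) fun l hl => by
      obtain ⟨a, b, c, d, f⟩ := hL l (mem_filter.1 hl).1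
      rw [e1 l hl]
      exact ⟨a, (mem_filter.1 hl).2, c, d, fun A hA hs =>
        (cnt_mono (filter_subset _ _) A).trans_lt (f A hA hs)⟩
    rw [sum_congr rfl fun l hl => by rw [e1 l hl]] at h1
    have e0 : ∀ l ∈ L.filter (fun l => ¬ ∀ y ∈ l, p y), cnt Q l ≤ 2 * cnt Q₀ l := by
      intro l hl
      obtain ⟨h2, h3⟩ := mem_filter.1 hl
      push Not at h3
      have h4 : cnt Q₁ l ≤ G.totalDegree := card_zero_le G (hL l h2).1 h3 _ fun x hx =>
        ⟨(mem_filter.1 hx).2, (mem_filter.1 (mem_filter.1 hx).1).2⟩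
      have h5 := cnt_split Q p l
      rw [← hQ₁, ← hQ₀] at h5
      have h6 := (hL l h2).2.2.2.1
      omega
    have h2 := smooth hC h F t κ w ht hκ Q₀
      (fun x hx e => (mem_filter.1 hx).2 (congrFun e i)) (L.filter fun l => ¬ ∀ y ∈ l, p y)
      fun l hl => by
        obtain ⟨a, b, c, d, f⟩ := hL l (mem_filter.1 hl).1
        have := e0 l hl
        exact ⟨a, b, by omega, fun A hA hs =>
          (cnt_mono (filter_subset _ _) A).trans_lt (f A hA hs)⟩
    have h3 : ∑ l ∈ L.filter (fun l => ¬ ∀ y ∈ l, p y), (cnt Q l : ℝ) ≤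
        2 * ∑ l ∈ L.filter (fun l => ¬ ∀ y ∈ l, p y), (cnt Q₀ l : ℝ) := by
      rw [mul_sum]
      exact sum_le_sum fun l hl => by exact_mod_cast e0 l hl
    have h4 : (Q₁.card : ℝ) + Q₀.card = Q.card := by
      exact_mod_cast card_filter_add_card_filter_not (s := Q) p
    rw [← sum_filter_add_sum_filter_not L (fun l => ∀ y ∈ l, p y), ← h4]
    linarith

end Crest.Agent.R65.L3
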